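import Vale.Agent.P141.PL.H477.Win

/-!
# P141: the regularised clock

`w j k c ≥ 0` = weight of the cube `c` of scale `k` of face `j` (e.g. `1` if something changes at
this cube, or the mass born at this cube).  The regularised clock `Lr` of a box is the total weight
of the cubes (of the four faces) in whose graded neighbourhood the box lies.  Near-plane boxes over
the same point of a face have almost the same clock, so that the crossings of a threshold define a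
leaf function on every face.
-/

namespace Vale.Agent.P141.PL.H477

open Finset

noncomputable section

/-- graded neighbourhood: the cube `q` of scale `k` and the cube `c` of scale `k'` -/
def near (k k' : ℕ) (q c : Pt) : Prop :=
  (2 ^ k' * c.1 - 2 ^ k * (q.1 + 1) ≤ 5 * (2 ^ k' - 2 ^ k : ℤ) ∧
    2 ^ k * q.1 - 2 ^ k' * (c.1 + 1) ≤ 5 * (2 ^ k' - 2 ^ k : ℤ)) ∧
  (2 ^ k' * c.2.1 - 2 ^ k * (q.2.1 + 1) ≤ 5 * (2 ^ k' - 2 ^ k : ℤ) ∧
    2 ^ k * q.2.1 - 2 ^ k' * (c.2.1 + 1) ≤ 5 * (2 ^ k' - 2 ^ k : ℤ)) ∧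
  (2 ^ k' * c.2.2 - 2 ^ k * (q.2.2 + 1) ≤ 5 * (2 ^ k' - 2 ^ k : ℤ) ∧
    2 ^ k * q.2.2 - 2 ^ k' * (c.2.2 + 1) ≤ 5 * (2 ^ k' - 2 ^ k : ℤ))

theorem near_self (k : ℕ) (c : Pt) : near k k c c := by
  have h : (0 : ℤ) < 2 ^ k := by positivity
  unfold near
  refine ⟨⟨?_, ?_⟩, ⟨?_, ?_⟩, ⟨?_, ?_⟩⟩ <;> linarith

/-- one step down, displacement at most `5` -/
theorem near_step {k k' : ℕ} {q q' c : Pt} (h : near (k + 1) k' q c)
    (h1 : 2 * q.1 - 4 ≤ q'.1 ∧ q'.1 ≤ 2 * q.1 + 5)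
    (h2 : 2 * q.2.1 - 4 ≤ q'.2.1 ∧ q'.2.1 ≤ 2 * q.2.1 + 5)
    (h3 : 2 * q.2.2 - 4 ≤ q'.2.2 ∧ q'.2.2 ≤ 2 * q.2.2 + 5) : near k k' q' c := by
  have hA : (0 : ℤ) < 2 ^ k := by positivity
  unfold near at h ⊢
  rw [pow_succ] at h
  obtain ⟨⟨a1, a2⟩, ⟨b1, b2⟩, ⟨c1, c2⟩⟩ := h
  have p1 := mul_le_mul_of_nonneg_left h1.1 hA.le
  have p2 := mul_le_mul_of_nonneg_left h1.2 hA.le
  have p3 := mul_le_mul_of_nonneg_left h2.1 hA.le
  have p4 := mul_le_mul_of_nonneg_left h2.2 hA.le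
  have p5 := mul_le_mul_of_nonneg_left h3.1 hA.le
  have p6 := mul_le_mul_of_nonneg_left h3.2 hA.le
  refine ⟨⟨?_, ?_⟩, ⟨?_, ?_⟩, ⟨?_, ?_⟩⟩
  · linarith
  · linarith
  · linarith
  · linarith
  · linarith
  · linarith

open Classical in
/-- the cubes of scale `k'` of face `j` near the cube `q` of scale `k` -/
def NS (n : ℕ) (R : Bx) (j : Fin 4) (k k' : ℕ) (q : Pt) : Finset Pt :=
  (cb (n - k') (fcb j R)).filter fun c => near k k' q c

/-- **The regularised clock** with weights `w`. -/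
def Lr (w : Fin 4 → ℕ → Pt → ℝ) (n : ℕ) (R : Bx) (k : ℕ) (m : Bx) : ℝ :=
  ∑ j : Fin 4, ∑ k' ∈ Ico k n, ∑ c ∈ NS n R j k k' (fcb j m), w j k' c

variable {w : Fin 4 → ℕ → Pt → ℝ} {n : ℕ} {R : Bx}

open Classical in
theorem NS_mono {j : Fin 4} {k k' : ℕ} {q q' : Pt}
    (h1 : 2 * q.1 - 4 ≤ q'.1 ∧ q'.1 ≤ 2 * q.1 + 5)
    (h2 : 2 * q.2.1 - 4 ≤ q'.2.1 ∧ q'.2.1 ≤ 2 * q.2.1 + 5)
    (h3 : 2 * q.2.2 - 4 ≤ q'.2.2 ∧ q'.2.2 ≤ 2 * q.2.2 + 5) :
    NS n R j (k + 1) k' q ⊆ NS n R j k k' q' := by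
  intro c hc
  unfold NS at hc ⊢
  rw [mem_filter] at hc ⊢
  exact ⟨hc.1, near_step hc.2 h1 h2 h3⟩

/-- the coordinates of near-plane boxes over nested cubes of one face -/
theorem coord_close {m m' : Bx} (hm : NP m) (hm' : NP m') (i : Fin 4)
    (h : cx 1 (fcb i m') = fcb i m) :
    (2 * m.1 - 4 ≤ m'.1 ∧ m'.1 ≤ 2 * m.1 + 5) ∧ (2 * m.2.1 - 4 ≤ m'.2.1 ∧ m'.2.1 ≤ 2 * m.2.1 + 5) ∧
    (2 * m.2.2.1 - 4 ≤ m'.2.2.1 ∧ m'.2.2.1 ≤ 2 * m.2.2.1 + 5) ∧
    (2 * m.2.2.2 - 4 ≤ m'.2.2.2 ∧ m'.2.2.2 ≤ 2 * m.2.2.2 + 5) := by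
  unfold NP ty at hm hm'
  unfold cx at h
  simp only [ix_one] at h
  fin_cases i <;> simp only [fcb, rf0, rf1, rf2, rf3, Prod.mk.injEq] at h <;>
    refine ⟨⟨?_, ?_⟩, ⟨?_, ?_⟩, ⟨?_, ?_⟩, ⟨?_, ?_⟩⟩ <;> omega

/-- coordinates of a child -/
theorem child_close (m : Bx) :
    (2 * (px 1 m).1 - 4 ≤ m.1 ∧ m.1 ≤ 2 * (px 1 m).1 + 5) ∧
    (2 * (px 1 m).2.1 - 4 ≤ m.2.1 ∧ m.2.1 ≤ 2 * (px 1 m).2.1 + 5) ∧
    (2 * (px 1 m).2.2.1 - 4 ≤ m.2.2.1 ∧ m.2.2.1 ≤ 2 * (px 1 m).2.2.1 + 5) ∧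
    (2 * (px 1 m).2.2.2 - 4 ≤ m.2.2.2 ∧ m.2.2.2 ≤ 2 * (px 1 m).2.2.2 + 5) := by
  unfold px
  simp only [ix_one]
  refine ⟨⟨?_, ?_⟩, ⟨?_, ?_⟩, ⟨?_, ?_⟩, ⟨?_, ?_⟩⟩ <;> omega

theorem NS_close {k k' : ℕ} {m m' : Bx}
    (h : (2 * m.1 - 4 ≤ m'.1 ∧ m'.1 ≤ 2 * m.1 + 5) ∧
    (2 * m.2.1 - 4 ≤ m'.2.1 ∧ m'.2.1 ≤ 2 * m.2.1 + 5) ∧
    (2 * m.2.2.1 - 4 ≤ m'.2.2.1 ∧ m'.2.2.1 ≤ 2 * m.2.2.1 + 5) ∧
    (2 * m.2.2.2 - 4 ≤ m'.2.2.2 ∧ m'.2.2.2 ≤ 2 * m.2.2.2 + 5)) (j : Fin 4) :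
    NS n R j (k + 1) k' (fcb j m) ⊆ NS n R j k k' (fcb j m') := by
  obtain ⟨h0, h1, h2, h3⟩ := h
  fin_cases j
  · exact NS_mono h1 h2 h3
  · exact NS_mono h0 h2 h3
  · exact NS_mono h0 h1 h3
  · exact NS_mono h0 h1 h2

theorem Lr_close (hw : ∀ j k c, 0 ≤ w j k c) {k : ℕ} {m m' : Bx}
    (h : (2 * m.1 - 4 ≤ m'.1 ∧ m'.1 ≤ 2 * m.1 + 5) ∧
    (2 * m.2.1 - 4 ≤ m'.2.1 ∧ m'.2.1 ≤ 2 * m.2.1 + 5) ∧
    (2 * m.2.2.1 - 4 ≤ m'.2.2.1 ∧ m'.2.2.1 ≤ 2 * m.2.2.1 + 5) ∧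
    (2 * m.2.2.2 - 4 ≤ m'.2.2.2 ∧ m'.2.2.2 ≤ 2 * m.2.2.2 + 5)) :
    Lr w n R (k + 1) m ≤ Lr w n R k m' := by
  unfold Lr
  refine sum_le_sum fun j _ => ?_
  have hsub : Ico (k + 1) n ⊆ Ico k n := Ico_subset_Ico (Nat.le_succ k) le_rfl
  refine le_trans (sum_le_sum fun k' _ => ?_)
    (sum_le_sum_of_subset_of_nonneg hsub fun _ _ _ => sum_nonneg fun _ _ => hw _ _ _)
  exact sum_le_sum_of_subset_of_nonneg (NS_close h j) fun _ _ _ => hw _ _ _

/-- **regularity** -/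
theorem Lr_step (hw : ∀ j k c, 0 ≤ w j k c) {k : ℕ} {m m' : Bx} (hm : NP m) (hm' : NP m')
    (i : Fin 4) (h : cx 1 (fcb i m') = fcb i m) : Lr w n R (k + 1) m ≤ Lr w n R k m' :=
  Lr_close hw (coord_close hm hm' i h)

/-- the clock does not decrease downwards -/
theorem Lr_mono (hw : ∀ j k c, 0 ≤ w j k c) : MonoL (Lr w n R) := fun _ m =>
  Lr_close hw (child_close m)

/-- the weight of its own face cubes increases the clock -/
theorem Lr_jump (hw : ∀ j k c, 0 ≤ w j k c) {k : ℕ} (hk : k < n) {m : Bx} (hm : m ∈ dn (n - k) R) :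
    Lr w n R (k + 1) (px 1 m) + ∑ j : Fin 4, w j k (fcb j m) ≤ Lr w n R k m := by
  unfold Lr
  rw [← sum_add_distrib]
  refine sum_le_sum fun i _ => ?_
  rw [← Finset.sum_Ioo_add_eq_sum_Ico hk]
  have e : Ico (k + 1) n = Ioo k n := by
    ext x; simp only [mem_Ico, mem_Ioo]; omega
  rw [e]
  refine add_le_add (sum_le_sum fun k' _ => ?_) ?_
  · exact sum_le_sum_of_subset_of_nonneg (NS_close (child_close m) i) fun _ _ _ => hw _ _ _
  · have hmem : fcb i m ∈ NS n R i k k (fcb i m) := by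
      classical
      unfold NS
      rw [mem_filter]
      refine ⟨?_, near_self k _⟩
      rw [mem_dn] at hm
      rw [mem_cb, ← fcb_px, hm]
    exact single_le_sum (f := fun c => w i k c) (fun _ _ => hw _ _ _) hmem

/-- **static data**: if the clock does not change, the weights of the face cubes vanish -/
theorem weight_zero (hw : ∀ j k c, 0 ≤ w j k c) {k : ℕ} (hk : k < n) {m : Bx}
    (hm : m ∈ dn (n - k) R) (h : Lr w n R k m = Lr w n R (k + 1) (px 1 m)) (j : Fin 4) :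
    w j k (fcb j m) = 0 := by
  have h1 := Lr_jump hw hk hm
  have h2 : w j k (fcb j m) ≤ ∑ j : Fin 4, w j k (fcb j m) :=
    single_le_sum (f := fun j => w j k (fcb j m)) (fun _ _ => hw _ _ _) (mem_univ j)
  have := hw j k (fcb j m)
  linarith

/-- the clock of the root -/
theorem Lr_root (m : Bx) : Lr w n R n m = 0 := by
  unfold Lr
  simp

theorem Lr_nonneg (hw : ∀ j k c, 0 ≤ w j k c) (k : ℕ) (m : Bx) : 0 ≤ Lr w n R k m :=
  sum_nonneg fun _ _ => sum_nonneg fun _ _ => sum_nonneg fun _ _ => hw _ _ _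

/-! ### crossings -/

/-- the cube `c` of scale `k` of face `i` carries a near-plane box, below the root, of clock at
least `t` -/
def Hit (w : Fin 4 → ℕ → Pt → ℝ) (n : ℕ) (R : Bx) (t : ℝ) (i : Fin 4) (k : ℕ) (c : Pt) : Prop :=
  ∃ m ∈ dn (n - k) R, NP m ∧ fcb i m = c ∧ t ≤ Lr w n R k m

/-- one scale below a hit cube all near-plane boxes are late -/
theorem hit_step (hw : ∀ j k c, 0 ≤ w j k c) {t : ℝ} {i : Fin 4} {k : ℕ} {c : Pt}
    (h : Hit w n R t i (k + 1) c) {m' : Bx}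
    (hm' : NP m') (hc : cx 1 (fcb i m') = c) : t ≤ Lr w n R k m' := by
  obtain ⟨m, -, hNP, hmc, ht⟩ := h
  exact ht.trans (Lr_step hw hNP hm' i (by rw [hc, hmc]))

/-- ancestors: below a hit cube all near-plane boxes are late -/
theorem hit_below (hw : ∀ j k c, 0 ≤ w j k c) {t : ℝ} {i : Fin 4} {k l : ℕ} {c : Pt}
    (h : Hit w n R t i (k + l + 1) c) {m' : Bx} (hm' : NP m')
    (hc : cx (l + 1) (fcb i m') = c) : t ≤ Lr w n R k m' := by
  have h1 : t ≤ Lr w n R (k + l) (px l m') := by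
    refine hit_step hw h (NP_px hm' l) ?_
    rw [fcb_px, ← hc]
    unfold cx
    simp only [ix_ix]
  exact h1.trans ((Lr_mono hw).le k l m')

open Classical in
/-- **The crossing scale** of the threshold `t` at the point `x` of face `i`: the coarsest scale
`k ≤ n` such that the cube of `x` is hit (`0` if there is none). -/
def tau (w : Fin 4 → ℕ → Pt → ℝ) (n : ℕ) (R : Bx) (t : ℝ) (i : Fin 4) (x : Pt) : ℕ :=
  Nat.findGreatest (fun k => Hit w n R t i k (cx k x)) n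

open Classical in
theorem tau_le (t : ℝ) (i : Fin 4) (x : Pt) : tau w n R t i x ≤ n := Nat.findGreatest_le n

open Classical in
theorem tau_hit {t : ℝ} {i : Fin 4} {x : Pt} (h : tau w n R t i x ≠ 0) :
    Hit w n R t i (tau w n R t i x) (cx (tau w n R t i x) x) :=
  Nat.findGreatest_of_ne_zero rfl h

open Classical in
theorem le_tau {t : ℝ} {i : Fin 4} {x : Pt} {k : ℕ} (hk : k ≤ n)
    (h : Hit w n R t i k (cx k x)) : k ≤ tau w n R t i x :=
  Nat.le_findGreatest hk h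

open Classical in
theorem not_hit {t : ℝ} {i : Fin 4} {x : Pt} {k : ℕ} (h : tau w n R t i x < k) (hk : k ≤ n) :
    ¬ Hit w n R t i k (cx k x) :=
  Nat.findGreatest_is_greatest h hk

theorem Hit.mono {t t' : ℝ} (h : t ≤ t') {i : Fin 4} {k : ℕ} {c : Pt}
    (hh : Hit w n R t' i k c) : Hit w n R t i k c := by
  obtain ⟨m, h1, h2, h3, h4⟩ := hh
  exact ⟨m, h1, h2, h3, h.trans h4⟩

/-- (i) the crossing scale does not increase with the threshold -/
theorem tau_anti {t t' : ℝ} (h : t ≤ t') (i : Fin 4) (x : Pt) :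
    tau w n R t' i x ≤ tau w n R t i x := by
  by_cases h0 : tau w n R t' i x = 0
  · rw [h0]; exact Nat.zero_le _
  · exact le_tau (tau_le _ _ _) ((tau_hit h0).mono h)

/-- (ii) the crossing scale is a leaf function -/
theorem tau_leaf (t : ℝ) (i : Fin 4) (p q : Pt)
    (h : cx (tau w n R t i p) q = cx (tau w n R t i p) p) :
    tau w n R t i q = tau w n R t i p := by
  set K := tau w n R t i p with hK
  have hup : ∀ k, K ≤ k → cx k q = cx k p := by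
    intro k hk
    obtain ⟨l, rfl⟩ := Nat.exists_eq_add_of_le hk
    have e : ∀ y : Pt, cx (K + l) y = cx l (cx K y) := by
      intro y
      unfold cx
      simp only [ix_ix]
    rw [e, e, h]
  have h1 : K ≤ tau w n R t i q := by
    by_cases h0 : K = 0
    · rw [h0]; exact Nat.zero_le _
    · refine le_tau (tau_le _ _ _) ?_
      rw [hup K le_rfl]
      exact tau_hit h0
  refine le_antisymm ?_ h1
  by_contra hcon
  push Not at hcon
  have h2 : tau w n R t i q ≠ 0 := by omega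
  have h3 := tau_hit h2
  rw [hup _ hcon.le] at h3
  exact not_hit (x := p) hcon (tau_le _ _ _) h3

/-- (iii) upper half of the sandwich -/
theorem le_tau_of_box {k : ℕ} (hk : k ≤ n) {m : Bx} (hm : m ∈ dn (n - k) R) (hNP : NP m)
    {t : ℝ} (ht : t ≤ Lr w n R k m) {i : Fin 4} {x : Pt} (hx : cx k x = fcb i m) :
    k ≤ tau w n R t i x :=
  le_tau hk ⟨m, hm, hNP, hx.symm, ht⟩

/-- (iii) lower half of the sandwich -/
theorem tau_le_of_box (hw : ∀ j k c, 0 ≤ w j k c) {k : ℕ} {m : Bx} (hNP : NP m) {t : ℝ}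
    (ht : Lr w n R k m < t) {i : Fin 4} {x : Pt} (hx : cx k x = fcb i m) :
    tau w n R t i x ≤ k := by
  by_contra hcon
  push Not at hcon
  have h0 : tau w n R t i x ≠ 0 := by omega
  obtain ⟨l, hl⟩ := Nat.exists_eq_add_of_lt hcon
  have h1 := tau_hit h0
  rw [hl] at h1
  have h2 := hit_below hw h1 hNP (by
    rw [← hx]
    unfold cx
    simp only [ix_ix]
    rfl)
  linarith

/-- **SANDWICH**: a near-plane box whose clock is in `[t, t')` lies, on each of its faces, between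
the crossing scales of `t` and of `t'`. -/
theorem sandwich (hw : ∀ j k c, 0 ≤ w j k c) {k : ℕ} (hk : k ≤ n) {m : Bx}
    (hm : m ∈ dn (n - k) R) (hNP : NP m) {t t' : ℝ} (ht : t ≤ Lr w n R k m)
    (ht' : Lr w n R k m < t') {i : Fin 4} {x : Pt} (hx : cx k x = fcb i m) :
    tau w n R t' i x ≤ k ∧ k ≤ tau w n R t i x :=
  ⟨tau_le_of_box hw hNP ht' hx, le_tau_of_box hk hm hNP ht hx⟩

/-! ### late points -/

theorem card_le_of_bounds {A : Finset ℤ} {a b : ℤ} {L : ℕ} (h : ∀ x ∈ A, a ≤ x ∧ x < b)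
    (hab : b - a ≤ L) : A.card ≤ L := by
  have hsub : A ⊆ Ico a b := fun x hx => mem_Ico.mpr (h x hx)
  refine (card_le_card hsub).trans ?_
  rw [Int.card_Ico]
  omega

/-- weak neighbourhood of a point and a cube of scale `k'` -/
def wnear (k' : ℕ) (q c : Pt) : Prop :=
  (2 ^ k' * (c.1 - 8) ≤ q.1 ∧ q.1 < 2 ^ k' * (c.1 + 9)) ∧
  (2 ^ k' * (c.2.1 - 8) ≤ q.2.1 ∧ q.2.1 < 2 ^ k' * (c.2.1 + 9)) ∧
  (2 ^ k' * (c.2.2 - 8) ≤ q.2.2 ∧ q.2.2 < 2 ^ k' * (c.2.2 + 9))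

/-- integer arithmetic: a point of a cube displaced by at most `2` -/
theorem wnear_aux {A B x q c : ℤ} (hA : 0 < A) (hAB : A ≤ B)
    (h1 : B * c - A * (q + 1) ≤ 5 * (B - A)) (h2 : A * q - B * (c + 1) ≤ 5 * (B - A))
    (h3 : A * (q - 2) ≤ x) (h4 : x < A * (q + 3)) : B * (c - 8) ≤ x ∧ x < B * (c + 9) := by
  constructor
  · linarith
  · linarith

/-- the centre box over a point of a face -/
def ctr (i : Fin 4) (x : Pt) : Bx := bov i (-2 - (x.1 + x.2.1 + x.2.2)) x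

theorem NP_ctr (i : Fin 4) (x : Pt) : NP (ctr i x) := by
  unfold NP ctr
  rw [ty_bov]
  constructor <;> linarith

theorem fcb_ctr (i : Fin 4) (x : Pt) : fcb i (ctr i x) = x := fcb_bov _ _ _

theorem ix_bounds (k : ℕ) (x : ℤ) : 2 ^ k * ix k x ≤ x ∧ x < 2 ^ k * ix k x + 2 ^ k := by
  have h := self_mem_iv k x
  unfold iv at h
  exact mem_Ico.mp h

/-- boxes over the same cube are close -/
theorem close_ctr {k : ℕ} {m : Bx} (hm : NP m) {i : Fin 4} {x : Pt} (h : cx k x = fcb i m) :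
    ((px k (ctr i x)).1 - 2 ≤ m.1 ∧ m.1 ≤ (px k (ctr i x)).1 + 2) ∧
    ((px k (ctr i x)).2.1 - 2 ≤ m.2.1 ∧ m.2.1 ≤ (px k (ctr i x)).2.1 + 2) ∧
    ((px k (ctr i x)).2.2.1 - 2 ≤ m.2.2.1 ∧ m.2.2.1 ≤ (px k (ctr i x)).2.2.1 + 2) ∧
    ((px k (ctr i x)).2.2.2 - 2 ≤ m.2.2.2 ∧ m.2.2.2 ≤ (px k (ctr i x)).2.2.2 + 2) := by
  have h1 : NP (px k (ctr i x)) := NP_px (NP_ctr i x) k
  have h2 : fcb i (px k (ctr i x)) = fcb i m := by
    rw [fcb_px, fcb_ctr, h]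
  generalize px k (ctr i x) = p at h1 h2
  unfold NP ty at hm h1
  fin_cases i <;> simp only [fcb, rf0, rf1, rf2, rf3, Prod.mk.injEq] at h2 <;>
    refine ⟨⟨?_, ?_⟩, ⟨?_, ?_⟩, ⟨?_, ?_⟩, ⟨?_, ?_⟩⟩ <;> omega

theorem coord_wnear {k k' : ℕ} (hk : k ≤ k') {x q c : ℤ}
    (h1 : 2 ^ k' * c - 2 ^ k * (q + 1) ≤ 5 * (2 ^ k' - 2 ^ k : ℤ))
    (h2 : 2 ^ k * q - 2 ^ k' * (c + 1) ≤ 5 * (2 ^ k' - 2 ^ k : ℤ))
    (h3 : ix k x - 2 ≤ q) (h4 : q ≤ ix k x + 2) :
    2 ^ k' * (c - 8) ≤ x ∧ x < 2 ^ k' * (c + 9) := by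
  have hA : (0 : ℤ) < 2 ^ k := by positivity
  have hAB : (2 : ℤ) ^ k ≤ 2 ^ k' := pow_le_pow_right₀ (by norm_num) hk
  obtain ⟨b1, b2⟩ := ix_bounds k x
  have p1 := mul_le_mul_of_nonneg_left h3 hA.le
  have p2 := mul_le_mul_of_nonneg_left h4 hA.le
  exact wnear_aux hA hAB h1 h2 (by linarith) (by linarith)

theorem near_wnear {k k' : ℕ} (hk : k ≤ k') {m : Bx} (hm : NP m) {i j : Fin 4} {x c : Pt}
    (h : cx k x = fcb i m) (hn : near k k' (fcb j m) c) : wnear k' (fcb j (ctr i x)) c := by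
  obtain ⟨h0, h1, h2, h3⟩ := close_ctr hm h
  unfold px at h0 h1 h2 h3
  simp only at h0 h1 h2 h3
  unfold near at hn
  unfold wnear
  obtain ⟨⟨a1, a2⟩, ⟨b1, b2⟩, ⟨c1, c2⟩⟩ := hn
  fin_cases j
  · exact ⟨coord_wnear hk a1 a2 (by simp only [fcb, rf0]; linarith [h1.1])
        (by simp only [fcb, rf0]; linarith [h1.2]),
      coord_wnear hk b1 b2 (by simp only [fcb, rf0]; linarith [h2.1])
        (by simp only [fcb, rf0]; linarith [h2.2]),
      coord_wnear hk c1 c2 (by simp only [fcb, rf0]; linarith [h3.1])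
        (by simp only [fcb, rf0]; linarith [h3.2])⟩
  · exact ⟨coord_wnear hk a1 a2 (by simp only [fcb, rf1]; linarith [h0.1])
        (by simp only [fcb, rf1]; linarith [h0.2]),
      coord_wnear hk b1 b2 (by simp only [fcb, rf1]; linarith [h2.1])
        (by simp only [fcb, rf1]; linarith [h2.2]),
      coord_wnear hk c1 c2 (by simp only [fcb, rf1]; linarith [h3.1])
        (by simp only [fcb, rf1]; linarith [h3.2])⟩
  · exact ⟨coord_wnear hk a1 a2 (by simp only [fcb, rf2]; linarith [h0.1])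
        (by simp only [fcb, rf2]; linarith [h0.2]),
      coord_wnear hk b1 b2 (by simp only [fcb, rf2]; linarith [h1.1])
        (by simp only [fcb, rf2]; linarith [h1.2]),
      coord_wnear hk c1 c2 (by simp only [fcb, rf2]; linarith [h3.1])
        (by simp only [fcb, rf2]; linarith [h3.2])⟩
  · exact ⟨coord_wnear hk a1 a2 (by simp only [fcb, rf3]; linarith [h0.1])
        (by simp only [fcb, rf3]; linarith [h0.2]),
      coord_wnear hk b1 b2 (by simp only [fcb, rf3]; linarith [h1.1])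
        (by simp only [fcb, rf3]; linarith [h1.2]),
      coord_wnear hk c1 c2 (by simp only [fcb, rf3]; linarith [h2.1])
        (by simp only [fcb, rf3]; linarith [h2.2])⟩

open Classical in
/-- the clock of a box over a point is at most a function of the point -/
theorem Lr_le_wnear (hw : ∀ j k c, 0 ≤ w j k c) {k : ℕ} {m : Bx} (hm : NP m) {i : Fin 4} {x : Pt}
    (h : cx k x = fcb i m) :
    Lr w n R k m ≤ ∑ j : Fin 4, ∑ k' ∈ range n, ∑ c ∈ cb (n - k') (fcb j R),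
      (if wnear k' (fcb j (ctr i x)) c then w j k' c else 0) := by
  unfold Lr
  refine sum_le_sum fun j _ => ?_
  have hsub : Ico k n ⊆ range n := fun y hy => mem_range.mpr (mem_Ico.mp hy).2
  have hpos : ∀ k' c, 0 ≤ (if wnear k' (fcb j (ctr i x)) c then w j k' c else 0) := by
    intro k' c
    split_ifs
    · exact hw _ _ _
    · exact le_rfl
  refine le_trans (sum_le_sum fun k' hk' => ?_)
    (sum_le_sum_of_subset_of_nonneg hsub fun _ _ _ => sum_nonneg fun _ _ => hpos _ _)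
  unfold NS
  rw [sum_filter]
  refine sum_le_sum fun c _ => ?_
  by_cases hn : near k k' (fcb j m) c
  · rw [if_pos hn, if_pos (near_wnear (mem_Ico.mp hk').1 hm h hn)]
  · rw [if_neg hn]
    exact hpos _ _

open Classical in
/-- number of points of a face whose centre box is near a given cube -/
theorem card_wnear (i j : Fin 4) (k' : ℕ) (c : Pt) (S : Finset Pt) :
    (S.filter fun x => wnear k' (fcb j (ctr i x)) c).card ≤ 17 ^ 3 * 8 ^ k' := by
  set I1 := Ico ((2 : ℤ) ^ k' * (c.1 - 8)) (2 ^ k' * (c.1 + 9)) with hI1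
  set I2 := Ico ((2 : ℤ) ^ k' * (c.2.1 - 8)) (2 ^ k' * (c.2.1 + 9)) with hI2
  set I3 := Ico ((2 : ℤ) ^ k' * (c.2.2 - 8)) (2 ^ k' * (c.2.2 + 9)) with hI3
  have hcard : ∀ a : ℤ, (Ico ((2 : ℤ) ^ k' * (a - 8)) (2 ^ k' * (a + 9))).card = 17 * 2 ^ k' := by
    intro a
    rw [Int.card_Ico]
    have : (2 : ℤ) ^ k' * (a + 9) - 2 ^ k' * (a - 8) = ((17 * 2 ^ k' : ℕ) : ℤ) := by
      push_cast; ring
    rw [this, Int.toNat_natCast]
  have hinj : Set.InjOn (fun x => fcb j (ctr i x))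
      (S.filter fun x => wnear k' (fcb j (ctr i x)) c) := by
    intro x _ y _ hxy
    simp only at hxy
    unfold ctr at hxy
    fin_cases i <;> fin_cases j <;>
      simp only [fcb, bov, rf0, rf1, rf2, rf3, Prod.mk.injEq] at hxy <;>
      refine Prod.ext ?_ (Prod.ext ?_ ?_) <;> omega
  have hmap : ∀ x ∈ (S.filter fun x => wnear k' (fcb j (ctr i x)) c),
      fcb j (ctr i x) ∈ I1 ×ˢ I2 ×ˢ I3 := by
    intro x hx
    have h := (mem_filter.mp hx).2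
    unfold wnear at h
    rw [mem_product, mem_product]
    exact ⟨mem_Ico.mpr h.1, mem_Ico.mpr h.2.1, mem_Ico.mpr h.2.2⟩
  refine (card_le_card_of_injOn _ hmap hinj).trans (le_of_eq ?_)
  rw [card_product, card_product, hcard, hcard, hcard, show (8 : ℕ) = 2 ^ 3 by norm_num, ← pow_mul,
    mul_comm 3 k', pow_mul]
  ring

open Classical in
/-- (iv) **few points are late** -/
theorem late_card (hw : ∀ j k c, 0 ≤ w j k c) {t : ℝ} (i : Fin 4) (S : Finset Pt) :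
    t * ((S.filter fun x => ∃ k ≤ n, Hit w n R t i k (cx k x)).card : ℝ)
      ≤ 4913 * ∑ j : Fin 4, ∑ k' ∈ range n, ∑ c ∈ cb (n - k') (fcb j R), 8 ^ k' * w j k' c := by
  set G : Pt → ℝ := fun x => ∑ j : Fin 4, ∑ k' ∈ range n, ∑ c ∈ cb (n - k') (fcb j R),
      (if wnear k' (fcb j (ctr i x)) c then w j k' c else 0) with hG
  have hpos : ∀ (x : Pt) (j : Fin 4) k' c,
      0 ≤ (if wnear k' (fcb j (ctr i x)) c then w j k' c else 0) := by
    intro x j k' c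
    split_ifs
    · exact hw _ _ _
    · exact le_rfl
  have hG0 : ∀ x, 0 ≤ G x := fun x =>
    sum_nonneg fun j _ => sum_nonneg fun k' _ => sum_nonneg fun c _ => hpos x j k' c
  have h1 : t * ((S.filter fun x => ∃ k ≤ n, Hit w n R t i k (cx k x)).card : ℝ)
      ≤ ∑ x ∈ S.filter fun x => ∃ k ≤ n, Hit w n R t i k (cx k x), G x := by
    rw [mul_comm, ← nsmul_eq_mul]
    refine card_nsmul_le_sum _ _ _ fun x hx => ?_
    obtain ⟨k, -, m, -, hNP, hmc, ht'⟩ := (mem_filter.mp hx).2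
    exact ht'.trans (Lr_le_wnear hw hNP hmc.symm)
  have h2 : ∑ x ∈ S.filter fun x => ∃ k ≤ n, Hit w n R t i k (cx k x), G x ≤ ∑ x ∈ S, G x :=
    sum_le_sum_of_subset_of_nonneg (filter_subset _ _) fun x _ _ => hG0 x
  refine h1.trans (h2.trans ?_)
  simp only [hG]
  rw [sum_comm, mul_sum]
  refine sum_le_sum fun j _ => ?_
  rw [sum_comm, mul_sum]
  refine sum_le_sum fun k' _ => ?_
  rw [sum_comm, mul_sum]
  refine sum_le_sum fun c _ => ?_
  rw [← sum_filter, sum_const, nsmul_eq_mul, ← mul_assoc]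
  refine mul_le_mul_of_nonneg_right ?_ (hw _ _ _)
  have h3 := card_wnear i j k' c S
  have h4 : ((S.filter fun x => wnear k' (fcb j (ctr i x)) c).card : ℝ) ≤ ((17 ^ 3 * 8 ^ k' : ℕ) : ℝ) := by
    exact_mod_cast h3
  refine h4.trans (le_of_eq ?_)
  push_cast
  norm_num

end

end Vale.Agent.P141.PL.H477
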