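import Vale.Agent.P141.PL.H477.Clock
import Vale.Agent.P141.PL.H262.Tree

/-!
# P141: projections along the regularised clock

The residual glued over the crossing cubes of the threshold `t` is a GLOBAL function of the face;
it moves in `ℓ²` with constant `1`, and it is nice on every face cube of every near-plane box whose
clock is less than `t`.
-/

namespace Vale.Agent.P141.PL.H477

open Finset Vale.Agent.P141.PL.H262

noncomputable section

variable {w : Fin 4 → ℕ → Pt → ℝ} {n : ℕ} {R : Bx}

theorem leaf_tau (t : ℝ) (i : Fin 4) : Leaf (tau w n R t i) := fun p q h => tau_leaf t i p q h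

/-- movement between consecutive leaf functions -/
theorem move_chain {D : ℕ → Pt → Set (Pt → ℝ)} (hD : Nice D) (F : Pt → ℝ) (k : ℕ) (m : Pt)
    (σ : ℕ → Pt → ℕ) (hσ : ∀ v, Leaf (σ v)) (h0 : ∀ v, ∀ p ∈ cb k m, σ v p ≤ k)
    (hanti : ∀ v, ∀ p ∈ cb k m, σ (v + 1) p ≤ σ v p) (V : ℕ) :
    nsq (cb k m) (fun p => F p - gl hD (σ 0) F p) +
      ∑ v ∈ range V, nsq (cb k m) (fun p => gl hD (σ (v + 1)) F p - gl hD (σ v) F p) ≤
        nsq (cb k m) (fun p => F p - gl hD (σ V) F p) := by
  induction V with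
  | zero => simp
  | succ V ih =>
    rw [sum_range_succ, ← add_assoc]
    have h1 := gl_move hD (hσ V) (hσ (V + 1)) F k m (h0 V) (hanti V)
    linarith

/-- **Movement along the clock**: for non-decreasing thresholds the glued residuals move in `ℓ²`
with total at most the energy of `F`. -/
theorem clock_move {D : ℕ → Pt → Set (Pt → ℝ)} (hD : Nice D) (F : Pt → ℝ) (i : Fin 4)
    (t : ℕ → ℝ) (ht : Monotone t) (V : ℕ) :
    ∑ v ∈ range V, nsq (cb n (fcb i R))
      (fun p => gl hD (tau w n R (t (v + 1)) i) F p - gl hD (tau w n R (t v) i) F p)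
      ≤ nsq (cb n (fcb i R)) F := by
  have h1 := move_chain hD F n (fcb i R) (fun v => tau w n R (t v) i)
    (fun v => leaf_tau _ _) (fun v p _ => tau_le _ _ _)
    (fun v p _ => tau_anti (ht (Nat.le_succ v)) i p) V
  have h2 := gl_energy hD (leaf_tau (w := w) (n := n) (R := R) (t V) i) F n (fcb i R)
    (fun p _ => tau_le _ _ _)
  have h3 := nsq_nonneg (cb n (fcb i R)) (gl hD (tau w n R (t V) i) F)
  have h4 := nsq_nonneg (cb n (fcb i R)) (fun p => F p - gl hD (tau w n R (t 0) i) F p)
  linarith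

/-- the residual of a later threshold is nice on the face cubes of every box of smaller clock -/
theorem clock_nice (hw : ∀ j k c, 0 ≤ w j k c) {D : ℕ → Pt → Set (Pt → ℝ)} (hD : Nice D)
    (F : Pt → ℝ) (i : Fin 4) {t : ℝ} {k : ℕ} {m : Bx} (hNP : NP m) (ht : Lr w n R k m < t) :
    gl hD (tau w n R t i) F ∈ D k (fcb i m) :=
  gl_mem hD (leaf_tau t i) F k (fcb i m) fun p hp =>
    tau_le_of_box hw hNP ht (mem_cb.mp hp)

end

end Vale.Agent.P141.PL.H477
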