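import Vale.Agent.P141.PL.Defs

/-!
# P141: the forest of near-plane boxes of the additive grid

`ty m` = sum of the indices.  The boxes of types `-1`, `-2`, `-3` are closed under parents; with the
weights `1, 4, 1` the measure `8 ^ k * wt (ty m)` is exactly additive, and over every face cube there
are exactly three such boxes, of total weight `6`.
-/

namespace Vale.Agent.P141.PL.H477

open Finset

noncomputable section

/-- the box `l` scales above -/
def px (l : ℕ) (m : Bx) : Bx := (ix l m.1, ix l m.2.1, ix l m.2.2.1, ix l m.2.2.2)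

/-- the boxes `l` scales below -/
def dn (l : ℕ) (m : Bx) : Finset Bx := iv l m.1 ×ˢ iv l m.2.1 ×ˢ iv l m.2.2.1 ×ˢ iv l m.2.2.2

theorem mem_dn {l : ℕ} {m q : Bx} : q ∈ dn l m ↔ px l q = m := by
  obtain ⟨a, b, c, d⟩ := m
  unfold dn px
  simp only [mem_product, mem_iv, Prod.mk.injEq]

theorem px_px (k l : ℕ) (m : Bx) : px l (px k m) = px (k + l) m := by
  unfold px
  simp only [ix_ix]

@[simp] theorem px_zero (m : Bx) : px 0 m = m := by
  obtain ⟨a, b, c, d⟩ := m
  unfold px
  simp only [ix_zero]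

/-- type of a box: the sum of the indices -/
def ty (m : Bx) : ℤ := m.1 + m.2.1 + m.2.2.1 + m.2.2.2

/-- near-plane boxes -/
def NP (m : Bx) : Prop := -3 ≤ ty m ∧ ty m ≤ -1

instance (m : Bx) : Decidable (NP m) := by unfold NP; infer_instance

theorem ix_one (x : ℤ) : ix 1 x = x / 2 := by simp [ix]

theorem NP_px_one {m : Bx} (h : NP m) : NP (px 1 m) := by
  unfold NP ty px at *
  simp only [ix_one]
  omega

theorem NP_px {m : Bx} (h : NP m) (l : ℕ) : NP (px l m) := by
  induction l with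
  | zero => rwa [px_zero]
  | succ l ih =>
    rw [← px_px]
    exact NP_px_one ih

/-- the weight of a type -/
def wt (s : ℤ) : ℝ := if s = -2 then 4 else if s = -1 ∨ s = -3 then 1 else 0

theorem wt_nonneg (s : ℤ) : 0 ≤ wt s := by
  unfold wt; split_ifs <;> norm_num

theorem one_le_wt {m : Bx} (h : NP m) : 1 ≤ wt (ty m) := by
  unfold NP at h
  unfold wt
  split_ifs with h1 h2
  · norm_num
  · norm_num
  · exfalso; omega

theorem wt_le_four (s : ℤ) : wt s ≤ 4 := by
  unfold wt; split_ifs <;> norm_num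

theorem wt_eq_zero {m : Bx} (h : ¬ NP m) : wt (ty m) = 0 := by
  unfold NP at h
  unfold wt
  rw [if_neg (by omega), if_neg (by omega)]

/-- the weights `1, 4, 1` are in equilibrium -/
theorem wt_eq (s : ℤ) : wt (2 * s) + 4 * wt (2 * s + 1) + 6 * wt (2 * s + 2) + 4 * wt (2 * s + 3)
    + wt (2 * s + 4) = 8 * wt s := by
  unfold wt
  rcases lt_or_ge s (-3) with h | h
  · rw [if_neg (by omega), if_neg (by omega), if_neg (by omega), if_neg (by omega),
      if_neg (by omega), if_neg (by omega), if_neg (by omega), if_neg (by omega),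
      if_neg (by omega), if_neg (by omega), if_neg (by omega), if_neg (by omega)]
    norm_num
  · rcases lt_or_ge (-1) s with h' | h'
    · rw [if_neg (by omega), if_neg (by omega), if_neg (by omega), if_neg (by omega),
        if_neg (by omega), if_neg (by omega), if_neg (by omega), if_neg (by omega),
        if_neg (by omega), if_neg (by omega), if_neg (by omega), if_neg (by omega)]
      norm_num
    · have h3 : s = -3 ∨ s = -2 ∨ s = -1 := by omega
      rcases h3 with rfl | rfl | rfl <;> norm_num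

theorem sum_iv_one {M : Type*} [AddCommMonoid M] (m : ℤ) (f : ℤ → M) :
    ∑ x ∈ iv 1 m, f x = f (2 * m) + f (2 * m + 1) := by
  have e : iv 1 m = {2 * m, 2 * m + 1} := by
    ext x
    rw [mem_iv, ix_one, mem_insert, mem_singleton]
    omega
  rw [e, sum_pair (by omega)]

/-- **additivity of the plane measure** -/
theorem sum_dn_one_wt (m : Bx) : ∑ q ∈ dn 1 m, wt (ty q) = 8 * wt (ty m) := by
  obtain ⟨a, b, c, d⟩ := m
  rw [← wt_eq]
  unfold dn
  simp only [sum_product, sum_iv_one, ty]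
  set s := a + b + c + d with hs
  have e0 : ∀ t : ℤ, t = 2 * s → wt t = wt (2 * s) := fun t h => by rw [h]
  have e1 : ∀ t : ℤ, t = 2 * s + 1 → wt t = wt (2 * s + 1) := fun t h => by rw [h]
  have e2 : ∀ t : ℤ, t = 2 * s + 2 → wt t = wt (2 * s + 2) := fun t h => by rw [h]
  have e3 : ∀ t : ℤ, t = 2 * s + 3 → wt t = wt (2 * s + 3) := fun t h => by rw [h]
  have e4 : ∀ t : ℤ, t = 2 * s + 4 → wt t = wt (2 * s + 4) := fun t h => by rw [h]
  rw [e0 (2 * a + 2 * b + 2 * c + 2 * d) (by rw [hs]; ring),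
    e1 (2 * a + 2 * b + 2 * c + (2 * d + 1)) (by rw [hs]; ring),
    e1 (2 * a + 2 * b + (2 * c + 1) + 2 * d) (by rw [hs]; ring),
    e2 (2 * a + 2 * b + (2 * c + 1) + (2 * d + 1)) (by rw [hs]; ring),
    e1 (2 * a + (2 * b + 1) + 2 * c + 2 * d) (by rw [hs]; ring),
    e2 (2 * a + (2 * b + 1) + 2 * c + (2 * d + 1)) (by rw [hs]; ring),
    e2 (2 * a + (2 * b + 1) + (2 * c + 1) + 2 * d) (by rw [hs]; ring),
    e3 (2 * a + (2 * b + 1) + (2 * c + 1) + (2 * d + 1)) (by rw [hs]; ring),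
    e1 (2 * a + 1 + 2 * b + 2 * c + 2 * d) (by rw [hs]; ring),
    e2 (2 * a + 1 + 2 * b + 2 * c + (2 * d + 1)) (by rw [hs]; ring),
    e2 (2 * a + 1 + 2 * b + (2 * c + 1) + 2 * d) (by rw [hs]; ring),
    e3 (2 * a + 1 + 2 * b + (2 * c + 1) + (2 * d + 1)) (by rw [hs]; ring),
    e2 (2 * a + 1 + (2 * b + 1) + 2 * c + 2 * d) (by rw [hs]; ring),
    e3 (2 * a + 1 + (2 * b + 1) + 2 * c + (2 * d + 1)) (by rw [hs]; ring),
    e3 (2 * a + 1 + (2 * b + 1) + (2 * c + 1) + 2 * d) (by rw [hs]; ring),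
    e4 (2 * a + 1 + (2 * b + 1) + (2 * c + 1) + (2 * d + 1)) (by rw [hs]; ring)]
  ring

/-- descendants in two steps -/
theorem sum_dn_add {M : Type*} [AddCommMonoid M] (k l : ℕ) (m : Bx) (f : Bx → M) :
    ∑ q ∈ dn (k + l) m, f q = ∑ r ∈ dn l m, ∑ q ∈ dn k r, f q := by
  rw [← sum_fiberwise_of_maps_to (s := dn (k + l) m) (t := dn l m) (g := px k)]
  · refine sum_congr rfl fun r hr => sum_congr ?_ fun _ _ => rfl
    ext q
    rw [mem_filter, mem_dn, mem_dn]
    rw [mem_dn] at hr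
    constructor
    · exact fun h => h.2
    · intro h
      exact ⟨by rw [← px_px, h, hr], h⟩
  · intro q hq
    rw [mem_dn] at hq ⊢
    rw [px_px, hq]

theorem sum_dn_wt (l : ℕ) (m : Bx) : ∑ q ∈ dn l m, wt (ty q) = 8 ^ l * wt (ty m) := by
  induction l generalizing m with
  | zero =>
    have e : dn 0 m = {m} := by
      ext q
      rw [mem_dn, px_zero, mem_singleton]
    rw [e, sum_singleton, pow_zero, one_mul]
  | succ l ih =>
    rw [sum_dn_add l 1 m]
    simp only [ih]
    rw [← mul_sum, sum_dn_one_wt, pow_succ]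
    ring

/-! ### faces -/

/-- the face cube of face `j` of a box -/
def fcb (j : Fin 4) (m : Bx) : Pt :=
  match j with
  | 0 => rf0 m
  | 1 => rf1 m
  | 2 => rf2 m
  | 3 => rf3 m

/-- the missing coordinate -/
def mis (j : Fin 4) (m : Bx) : ℤ :=
  match j with
  | 0 => m.1
  | 1 => m.2.1
  | 2 => m.2.2.1
  | 3 => m.2.2.2

/-- the box with missing coordinate `t` over a face cube -/
def bov (j : Fin 4) (t : ℤ) (c : Pt) : Bx :=
  match j with
  | 0 => (t, c.1, c.2.1, c.2.2)
  | 1 => (c.1, t, c.2.1, c.2.2)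
  | 2 => (c.1, c.2.1, t, c.2.2)
  | 3 => (c.1, c.2.1, c.2.2, t)

theorem fcb_bov (j : Fin 4) (t : ℤ) (c : Pt) : fcb j (bov j t c) = c := by
  fin_cases j <;> rfl

theorem mis_bov (j : Fin 4) (t : ℤ) (c : Pt) : mis j (bov j t c) = t := by
  fin_cases j <;> rfl

theorem bov_mis (j : Fin 4) (m : Bx) : bov j (mis j m) (fcb j m) = m := by
  fin_cases j <;> rfl

theorem ty_bov (j : Fin 4) (t : ℤ) (c : Pt) : ty (bov j t c) = t + (c.1 + c.2.1 + c.2.2) := by
  fin_cases j <;> simp only [bov, ty] <;> ring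

theorem fcb_px (j : Fin 4) (l : ℕ) (m : Bx) : fcb j (px l m) = cx l (fcb j m) := by
  fin_cases j <;> rfl

/-- sums over boxes by face cubes -/
theorem sum_dn_face {M : Type*} [AddCommMonoid M] (j : Fin 4) (l : ℕ) (m : Bx) (f : Bx → M) :
    ∑ q ∈ dn l m, f q = ∑ c ∈ cb l (fcb j m), ∑ t ∈ iv l (mis j m), f (bov j t c) := by
  rw [← sum_product' (s := cb l (fcb j m)) (t := iv l (mis j m)) (f := fun c t => f (bov j t c))]
  refine sum_nbij' (fun q => (fcb j q, mis j q)) (fun p => bov j p.2 p.1) ?_ ?_ ?_ ?_ ?_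
  · intro q hq
    rw [mem_dn] at hq
    rw [mem_product, mem_cb, mem_iv, ← hq]
    refine ⟨(fcb_px j l q).symm, ?_⟩
    fin_cases j <;> rfl
  · intro p hp
    rw [mem_product, mem_cb, mem_iv] at hp
    rw [mem_dn]
    obtain ⟨h1, h2⟩ := hp
    rw [← bov_mis j m, ← h1, ← h2]
    fin_cases j <;> rfl
  · intro q _
    exact bov_mis j q
  · intro p _
    rw [Prod.ext_iff]
    exact ⟨fcb_bov j p.2 p.1, mis_bov j p.2 p.1⟩
  · intro q _
    rw [bov_mis]

/-- at most three boxes over a face cube, of total weight `6` -/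
theorem sum_wt_le (S : Finset ℤ) (c : ℤ) : ∑ t ∈ S, wt (t + c) ≤ 6 := by
  have h1 : ∑ t ∈ S, wt (t + c) ≤ ∑ t ∈ S ∪ {-1 - c, -2 - c, -3 - c}, wt (t + c) :=
    sum_le_sum_of_subset_of_nonneg subset_union_left fun _ _ _ => wt_nonneg _
  have h2 : ∑ t ∈ S ∪ {-1 - c, -2 - c, -3 - c}, wt (t + c)
      = ∑ t ∈ ({-1 - c, -2 - c, -3 - c} : Finset ℤ), wt (t + c) := by
    symm
    refine sum_subset subset_union_right fun t _ ht => ?_
    simp only [mem_insert, mem_singleton, not_or] at ht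
    unfold wt
    rw [if_neg (by omega), if_neg (by omega)]
  rw [h2] at h1
  refine h1.trans (le_of_eq ?_)
  rw [sum_insert (by simp only [mem_insert, mem_singleton]; omega), sum_pair (by omega)]
  have e1 : -1 - c + c = -1 := by ring
  have e2 : -2 - c + c = -2 := by ring
  have e3 : -3 - c + c = -3 := by ring
  rw [e1, e2, e3]
  norm_num [wt]

/-- at most three near-plane boxes over a face cube -/
theorem card_NP_le (j : Fin 4) (S : Finset ℤ) (c : Pt) :
    (S.filter fun t => NP (bov j t c)).card ≤ 3 := by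
  have h : (S.filter fun t => NP (bov j t c)) ⊆
      {-1 - (c.1 + c.2.1 + c.2.2), -2 - (c.1 + c.2.1 + c.2.2), -3 - (c.1 + c.2.1 + c.2.2)} := by
    intro t ht
    have h1 := (mem_filter.mp ht).2
    unfold NP at h1
    rw [ty_bov] at h1
    simp only [mem_insert, mem_singleton]
    omega
  refine (card_le_card h).trans ?_
  exact card_le_three

/-- weighted sums over boxes of a face function -/
theorem sum_dn_wt_face_le (j : Fin 4) (l : ℕ) (m : Bx) (g : Pt → ℝ) (hg : ∀ c, 0 ≤ g c) :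
    ∑ q ∈ dn l m, wt (ty q) * g (fcb j q) ≤ 6 * ∑ c ∈ cb l (fcb j m), g c := by
  rw [sum_dn_face j, mul_sum]
  refine sum_le_sum fun c _ => ?_
  have h1 : ∀ t, wt (ty (bov j t c)) * g (fcb j (bov j t c))
      = wt (t + (c.1 + c.2.1 + c.2.2)) * g c := by
    intro t
    rw [fcb_bov, ty_bov]
  simp only [h1]
  rw [← sum_mul]
  exact mul_le_mul_of_nonneg_right (sum_wt_le _ _) (hg c)

/-- sums over near-plane boxes of a face function -/
theorem sum_dn_NP_face_le (j : Fin 4) (l : ℕ) (m : Bx) (g : Pt → ℝ) (hg : ∀ c, 0 ≤ g c) :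
    ∑ q ∈ dn l m, (if NP q then g (fcb j q) else 0) ≤ 3 * ∑ c ∈ cb l (fcb j m), g c := by
  rw [sum_dn_face j, mul_sum]
  refine sum_le_sum fun c _ => ?_
  have h1 : ∀ t, (if NP (bov j t c) then g (fcb j (bov j t c)) else 0)
      = if NP (bov j t c) then g c else 0 := by
    intro t
    rw [fcb_bov]
  simp only [h1]
  rw [← sum_filter, sum_const, nsmul_eq_mul]
  refine mul_le_mul_of_nonneg_right ?_ (hg c)
  exact_mod_cast card_NP_le j _ c

end

end Vale.Agent.P141.PL.H477
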