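import Mathlib

/-!
# P141: random sign transfer

A bound `∑ |ℓ i f| ≤ A ‖f‖` for a family of linear functionals gives the same bound for functions
which are allowed to depend on the block `u i` of the index.
-/

namespace Vale.Agent.P141.PL.H477

open Finset

noncomputable section

/-- signs -/
def sg (b : Bool) : ℝ := if b then 1 else -1

theorem sg_mul_self (b : Bool) : sg b * sg b = 1 := by
  unfold sg; split_ifs <;> norm_num

theorem abs_sg (b : Bool) : |sg b| = 1 := by
  unfold sg; split_ifs <;> simp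

theorem sum_sg : ∑ b : Bool, sg b = 0 := by
  simp [sg]

variable {U : Type*} [Fintype U] [DecidableEq U]

/-- orthogonality of the coordinate signs -/
theorem sum_signs_mul (u v : U) :
    ∑ e : U → Bool, sg (e u) * sg (e v) = if u = v then (Fintype.card (U → Bool) : ℝ) else 0 := by
  split_ifs with h
  · subst h
    simp only [sg_mul_self, sum_const, card_univ, nsmul_eq_mul, mul_one]
  · -- flip the coordinate `u`
    have hinv : ∑ e : U → Bool, sg (e u) * sg (e v)
        = ∑ e : U → Bool, -(sg (e u) * sg (e v)) := by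
      refine Finset.sum_nbij' (fun e => Function.update e u (!(e u)))
        (fun e => Function.update e u (!(e u))) (fun _ _ => mem_univ _) (fun _ _ => mem_univ _)
        ?_ ?_ ?_
      · intro e _
        ext w
        by_cases hw : w = u
        · subst hw; simp
        · simp [hw]
      · intro e _
        ext w
        by_cases hw : w = u
        · subst hw; simp
        · simp [hw]
      · intro e _
        have h1 : Function.update e u (!(e u)) v = e v := by
          rw [Function.update_of_ne (Ne.symm h)]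
        rw [h1, Function.update_self]
        have h2 : sg (!(e u)) = -sg (e u) := by cases e u <;> simp [sg]
        rw [h2]; ring
    rw [sum_neg_distrib] at hinv
    linarith

variable {E : Type*} [NormedAddCommGroup E] [InnerProductSpace ℝ E]

/-- the second moment of a random sum -/
theorem sum_norm_sq_signs (f : U → E) :
    ∑ e : U → Bool, ‖∑ v, sg (e v) • f v‖ ^ 2
      = (Fintype.card (U → Bool) : ℝ) * ∑ v, ‖f v‖ ^ 2 := by
  have h1 : ∀ e : U → Bool, ‖∑ v, sg (e v) • f v‖ ^ 2
      = ∑ v, ∑ w, (sg (e v) * sg (e w)) * inner ℝ (f v) (f w) := by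
    intro e
    rw [← real_inner_self_eq_norm_sq, sum_inner]
    refine sum_congr rfl fun v _ => ?_
    rw [inner_sum]
    refine sum_congr rfl fun w _ => ?_
    rw [real_inner_smul_left, real_inner_smul_right, mul_assoc]
  simp only [h1]
  rw [sum_comm]
  have h2 : ∀ v : U, ∑ e : U → Bool, ∑ w, (sg (e v) * sg (e w)) * inner ℝ (f v) (f w)
      = (Fintype.card (U → Bool) : ℝ) * ‖f v‖ ^ 2 := by
    intro v
    rw [sum_comm]
    simp only [← sum_mul]
    simp only [sum_signs_mul]
    rw [Finset.sum_eq_single v]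
    · rw [if_pos rfl, real_inner_self_eq_norm_sq]
    · intro w _ hw
      rw [if_neg (Ne.symm hw), zero_mul]
    · intro h; exact absurd (mem_univ v) h
  simp only [h2]
  rw [mul_sum]

theorem sum_norm_signs_le (f : U → E) :
    ∑ e : U → Bool, ‖∑ v, sg (e v) • f v‖
      ≤ (Fintype.card (U → Bool) : ℝ) * Real.sqrt (∑ v, ‖f v‖ ^ 2) := by
  have h := sum_norm_sq_signs (E := E) f
  have hcs := Finset.sum_mul_sq_le_sq_mul_sq (univ : Finset (U → Bool)) (fun _ => (1 : ℝ))
    (fun e => ‖∑ v, sg (e v) • f v‖)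
  simp only [one_mul, one_pow, sum_const, card_univ, nsmul_eq_mul, mul_one] at hcs
  rw [h, ← mul_assoc, ← pow_two] at hcs
  have hN : (0 : ℝ) ≤ (Fintype.card (U → Bool) : ℝ) := Nat.cast_nonneg _
  have h0 : 0 ≤ ∑ e : U → Bool, ‖∑ v, sg (e v) • f v‖ := sum_nonneg fun _ _ => norm_nonneg _
  have h1 : 0 ≤ ∑ v, ‖f v‖ ^ 2 := sum_nonneg fun _ _ => sq_nonneg _
  rw [← Real.sqrt_sq hN, ← Real.sqrt_mul (sq_nonneg _), ← Real.sqrt_sq h0]
  exact Real.sqrt_le_sqrt hcs

/-- **Random sign transfer.** -/
theorem sign_transfer {ι : Type*} (s : Finset ι) (l : ι → E →ₗ[ℝ] ℝ) (A : ℝ)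
    (h : ∀ f : E, ∑ i ∈ s, |l i f| ≤ A * ‖f‖) (u : ι → U) (f : U → E) :
    ∑ i ∈ s, |l i (f (u i))| ≤ A * Real.sqrt (∑ v, ‖f v‖ ^ 2) := by
  set N : ℝ := (Fintype.card (U → Bool) : ℝ) with hN
  have hNpos : 0 < N := by
    rw [hN]; exact_mod_cast Fintype.card_pos
  have h1 : ∀ i, N * |l i (f (u i))| ≤ ∑ e : U → Bool, |l i (∑ v, sg (e v) • f v)| := by
    intro i
    have h2 : ∑ e : U → Bool, sg (e (u i)) * l i (∑ v, sg (e v) • f v)
        = N * l i (f (u i)) := by
      have h3 : ∀ e : U → Bool, sg (e (u i)) * l i (∑ v, sg (e v) • f v)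
          = ∑ v, (sg (e (u i)) * sg (e v)) * l i (f v) := by
        intro e
        rw [map_sum, mul_sum]
        refine sum_congr rfl fun v _ => ?_
        rw [map_smul, smul_eq_mul, mul_assoc]
      simp only [h3]
      rw [sum_comm]
      simp only [← sum_mul, sum_signs_mul]
      rw [Finset.sum_eq_single (u i)]
      · rw [if_pos rfl]
      · intro w _ hw
        rw [if_neg (Ne.symm hw), zero_mul]
      · intro h; exact absurd (mem_univ (u i)) h
    have h4 : N * |l i (f (u i))| = |∑ e : U → Bool, sg (e (u i)) * l i (∑ v, sg (e v) • f v)| := by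
      rw [h2, abs_mul, abs_of_pos hNpos]
    rw [h4]
    refine (abs_sum_le_sum_abs _ _).trans (sum_le_sum fun e _ => ?_)
    rw [abs_mul, abs_sg, one_mul]
  have h5 : N * ∑ i ∈ s, |l i (f (u i))| ≤ N * (A * Real.sqrt (∑ v, ‖f v‖ ^ 2)) := by
    rw [mul_sum]
    refine (sum_le_sum fun i _ => h1 i).trans ?_
    rw [sum_comm]
    refine (sum_le_sum fun e _ => h (∑ v, sg (e v) • f v)).trans ?_
    rw [← mul_sum]
    by_cases hA : 0 ≤ A
    · have := mul_le_mul_of_nonneg_left (sum_norm_signs_le f) hA
      refine this.trans (le_of_eq ?_)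
      rw [hN]; ring
    · -- `A < 0` forces all norms to vanish
      push Not at hA
      have hz : ∀ g : E, ‖g‖ = 0 := by
        intro g
        have := h g
        have h0 : 0 ≤ ∑ i ∈ s, |l i g| := sum_nonneg fun _ _ => abs_nonneg _
        by_contra hg
        have : 0 < ‖g‖ := lt_of_le_of_ne (norm_nonneg g) (Ne.symm hg)
        nlinarith
      simp only [hz]
      simp
  exact le_of_mul_le_mul_left h5 hNpos

end

end Vale.Agent.P141.PL.H477
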