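import Vale.Agent.P141.PL.H477.Forest

/-!
# P141: windows of a monotone label on the tree of boxes

`ν k m` = label of the box of scale `k` and index `m`, non-decreasing downwards.  A window is a
connected set of boxes with constant label; its root is its coarsest box.
-/

namespace Vale.Agent.P141.PL.H477

open Finset

noncomputable section

section general

variable {α : Type*} [PartialOrder α]

/-- the label does not decrease downwards -/
def MonoL (ν : ℕ → Bx → α) : Prop := ∀ k m, ν (k + 1) (px 1 m) ≤ ν k m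

theorem MonoL.le {ν : ℕ → Bx → α} (h : MonoL ν) (k l : ℕ) (m : Bx) :
    ν (k + l) (px l m) ≤ ν k m := by
  induction l with
  | zero => rw [px_zero, add_zero]
  | succ l ih =>
    rw [← px_px]
    exact (h (k + l) (px l m)).trans ih

/-- roots of windows inside a box of scale `n` -/
def IsRt (ν : ℕ → Bx → α) (n k : ℕ) (m : Bx) : Prop := k = n ∨ ν (k + 1) (px 1 m) ≠ ν k m

theorem sum_dn_comp {M : Type*} [AddCommMonoid M] {k k' n : ℕ} (h : k ≤ k') (h' : k' ≤ n) (R : Bx)
    (g : Bx → Bx → M) : ∑ r ∈ dn (n - k') R, ∑ m ∈ dn (k' - k) r, g r m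
      = ∑ m ∈ dn (n - k) R, g (px (k' - k) m) m := by
  have e : n - k = (k' - k) + (n - k') := by omega
  rw [e, sum_dn_add (k' - k) (n - k') R]
  refine sum_congr rfl fun r _ => sum_congr rfl fun m hm => ?_
  rw [mem_dn.mp hm]

open Classical in
/-- every box has exactly one window root -/
theorem sum_root {M : Type*} [AddCommMonoid M] {ν : ℕ → Bx → α} (hν : MonoL ν) {k n : ℕ}
    (hk : k ≤ n) (m : Bx) (x : M) :
    ∑ k' ∈ Icc k n, (if IsRt ν n k' (px (k' - k) m) then
      (if ν k m = ν k' (px (k' - k) m) then x else 0) else 0) = x := by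
  set P : ℕ → Prop := fun k' => ν k m = ν k' (px (k' - k) m) with hP
  have hP0 : P k := by simp only [hP, Nat.sub_self, px_zero]
  have hanti : ∀ i j, k ≤ i → i ≤ j → ν j (px (j - k) m) ≤ ν i (px (i - k) m) := by
    intro i j hi hij
    have h1 := hν.le i (j - i) (px (i - k) m)
    rw [px_px] at h1
    have e1 : i + (j - i) = j := by omega
    have e2 : (i - k) + (j - i) = j - k := by omega
    rwa [e1, e2] at h1
  have hdown : ∀ i j, k ≤ i → i ≤ j → P j → P i := by
    intro i j hi hij hj
    have h1 := hanti i j hi hij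
    have h2 := hanti k i le_rfl hi
    rw [Nat.sub_self, px_zero] at h2
    simp only [hP] at hj ⊢
    rw [← hj] at h1
    exact le_antisymm h1 h2
  -- the largest index with the same label
  have hne : ((Icc k n).filter P).Nonempty := ⟨k, mem_filter.mpr ⟨mem_Icc.mpr ⟨le_rfl, hk⟩, hP0⟩⟩
  set K := ((Icc k n).filter P).max' hne with hK
  have hKm : K ∈ (Icc k n).filter P := max'_mem _ _
  obtain ⟨hK1, hKP⟩ := mem_filter.mp hKm
  obtain ⟨hkK, hKn⟩ := mem_Icc.mp hK1
  have hmax : ∀ j, k ≤ j → j ≤ n → P j → j ≤ K := fun j h1 h2 h3 =>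
    le_max' _ _ (mem_filter.mpr ⟨mem_Icc.mpr ⟨h1, h2⟩, h3⟩)
  have hstep : ∀ j, k ≤ j → px 1 (px (j - k) m) = px (j + 1 - k) m := by
    intro j hj
    rw [px_px]
    congr 1
    omega
  rw [sum_eq_single K]
  · rw [if_pos, if_pos hKP]
    by_cases hKn' : K = n
    · exact Or.inl hKn'
    · right
      intro h
      rw [hstep K hkK] at h
      have hP1 : P (K + 1) := by
        simp only [hP] at hKP ⊢
        rw [h, ← hKP]
      have := hmax (K + 1) (by omega) (by omega) hP1
      omega
  · intro j hj hjK
    obtain ⟨hj1, hj2⟩ := mem_Icc.mp hj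
    by_cases hPj : P j
    · have hjK' : j < K := lt_of_le_of_ne (hmax j hj1 hj2 hPj) hjK
      rw [if_neg]
      intro hr
      rcases hr with h | h
      · omega
      · refine h ?_
        rw [hstep j hj1]
        have h1 : P (j + 1) := hdown (j + 1) K (by omega) (by omega) hKP
        simp only [hP] at h1 hPj
        rw [← h1, ← hPj]
    · have : ¬ (ν k m = ν j (px (j - k) m)) := hPj
      rw [if_neg this]
      split_ifs <;> rfl
  · intro h
    exact absurd hK1 h

open Classical in
/-- **Partition of the boxes below `R` into windows.** -/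
theorem window_sum {M : Type*} [AddCommMonoid M] {ν : ℕ → Bx → α} (hν : MonoL ν) (n : ℕ) (R : Bx)
    (f : ℕ → Bx → M) :
    ∑ k' ∈ range (n + 1), ∑ r ∈ dn (n - k') R, (if IsRt ν n k' r then
      ∑ k ∈ range (k' + 1), ∑ m ∈ dn (k' - k) r, (if ν k m = ν k' r then f k m else 0) else 0)
    = ∑ k ∈ range (n + 1), ∑ m ∈ dn (n - k) R, f k m := by
  have h1 : ∀ k' ∈ range (n + 1), ∑ r ∈ dn (n - k') R, (if IsRt ν n k' r then
      ∑ k ∈ range (k' + 1), ∑ m ∈ dn (k' - k) r, (if ν k m = ν k' r then f k m else 0) else 0)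
      = ∑ k ∈ range (n + 1), if k ≤ k' then ∑ m ∈ dn (n - k) R,
        (if IsRt ν n k' (px (k' - k) m) then
          (if ν k m = ν k' (px (k' - k) m) then f k m else 0) else 0) else 0 := by
    intro k' hk'
    have hk'n : k' ≤ n := by have := mem_range.mp hk'; omega
    have h2 : ∀ r, (if IsRt ν n k' r then
      ∑ k ∈ range (k' + 1), ∑ m ∈ dn (k' - k) r, (if ν k m = ν k' r then f k m else 0) else 0)
        = ∑ k ∈ range (k' + 1), ∑ m ∈ dn (k' - k) r, (if IsRt ν n k' r then
          (if ν k m = ν k' r then f k m else 0) else 0) := by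
      intro r
      split_ifs
      · rfl
      · simp
    simp only [h2]
    rw [sum_comm]
    rw [← sum_filter]
    have h3 : (range (n + 1)).filter (fun k => k ≤ k') = range (k' + 1) := by
      ext k
      simp only [mem_filter, mem_range]
      omega
    rw [h3]
    refine sum_congr rfl fun k hk => ?_
    have hkk' : k ≤ k' := by have := mem_range.mp hk; omega
    exact sum_dn_comp hkk' hk'n R (fun r m => if IsRt ν n k' r then
          (if ν k m = ν k' r then f k m else 0) else 0)
  rw [sum_congr rfl h1, sum_comm]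
  refine sum_congr rfl fun k hk => ?_
  have hkn : k ≤ n := by have := mem_range.mp hk; omega
  rw [← sum_filter]
  have h3 : (range (n + 1)).filter (fun k' => k ≤ k') = Icc k n := by
    ext k'
    simp only [mem_filter, mem_range, mem_Icc]
    omega
  rw [h3, sum_comm]
  exact sum_congr rfl fun m _ => sum_root hν hkn m (f k m)

end general

/-! ### labels of faces -/

/-- the label of a box from labels of its four face cubes -/
def lbl (N : Fin 4 → ℕ → Pt → ℕ) (k : ℕ) (m : Bx) : Fin 4 → ℕ := fun j => N j k (fcb j m)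

theorem lbl_mono {N : Fin 4 → ℕ → Pt → ℕ} (hN : ∀ j k c, N j (k + 1) (cx 1 c) ≤ N j k c) :
    MonoL (lbl N) := by
  intro k m j
  unfold lbl
  rw [fcb_px]
  exact hN j k (fcb j m)

open Classical in
/-- **Packing of window roots**, plane measure `8 ^ k * wt`: every jump of a label of a face costs
at most `6 * 8 ^ k`. -/
theorem packing (N : Fin 4 → ℕ → Pt → ℕ) (n : ℕ) (R : Bx) :
    ∑ k ∈ range (n + 1), ∑ r ∈ dn (n - k) R, (if IsRt (lbl N) n k r then 8 ^ k * wt (ty r) else 0)
      ≤ 8 ^ n * wt (ty R) + ∑ j : Fin 4, ∑ k ∈ range n, ∑ c ∈ cb (n - k) (fcb j R),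
        (if N j (k + 1) (cx 1 c) ≠ N j k c then 6 * (8 : ℝ) ^ k else 0) := by
  rw [sum_range_succ, add_comm]
  refine add_le_add ?_ ?_
  · have e : dn (n - n) R = {R} := by
      ext q
      rw [mem_dn, Nat.sub_self, px_zero, mem_singleton]
    have h0 : IsRt (lbl N) n n R := Or.inl rfl
    rw [e, sum_singleton, if_pos h0]
  · rw [sum_comm (s := (univ : Finset (Fin 4)))]
    refine sum_le_sum fun k hk => ?_
    have hk' := mem_range.mp hk
    have h1 : ∀ r : Bx, (if IsRt (lbl N) n k r then (8 : ℝ) ^ k * wt (ty r) else 0)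
        ≤ ∑ j : Fin 4, wt (ty r) * (if N j (k + 1) (cx 1 (fcb j r)) ≠ N j k (fcb j r)
          then (8 : ℝ) ^ k else 0) := by
      intro r
      have hpos : ∀ j : Fin 4, 0 ≤ wt (ty r) * (if N j (k + 1) (cx 1 (fcb j r)) ≠ N j k (fcb j r)
          then (8 : ℝ) ^ k else 0) := fun j => mul_nonneg (wt_nonneg _) (by positivity)
      split_ifs with h
      · rcases h with h | h
        · omega
        · have h2 : ∃ j, N j (k + 1) (cx 1 (fcb j r)) ≠ N j k (fcb j r) := by
            by_contra hcon
            push Not at hcon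
            refine h ?_
            funext j
            unfold lbl
            rw [fcb_px]
            exact hcon j
          obtain ⟨j, hj⟩ := h2
          refine le_trans (le_of_eq ?_) (single_le_sum (fun i _ => hpos i) (mem_univ j))
          rw [if_pos hj]; ring
      · exact sum_nonneg fun j _ => hpos j
    refine (sum_le_sum fun r _ => h1 r).trans ?_
    rw [sum_comm]
    refine sum_le_sum fun j _ => ?_
    have h3 := sum_dn_wt_face_le j (n - k) R
      (fun c => if N j (k + 1) (cx 1 c) ≠ N j k c then (8 : ℝ) ^ k else 0)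
      (fun c => by positivity)
    refine h3.trans (le_of_eq ?_)
    rw [mul_sum]
    refine sum_congr rfl fun c _ => ?_
    split_ifs <;> simp

open Classical in
/-- face cubes seen by the window of root `(k', r)` -/
def Seen (N : Fin 4 → ℕ → Pt → ℕ) (j : Fin 4) (k' : ℕ) (r : Bx) (k : ℕ) (c : Pt) : Prop :=
  ∃ m ∈ dn (k' - k) r, NP m ∧ fcb j m = c ∧ lbl N k m = lbl N k' r

open Classical in
/-- **Movement sums**: a nonnegative face quantity is seen by at most three windows. -/
theorem movement {N : Fin 4 → ℕ → Pt → ℕ} (hN : ∀ j k c, N j (k + 1) (cx 1 c) ≤ N j k c)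
    (j : Fin 4) (n : ℕ) (R : Bx) (g : ℕ → Pt → ℝ) (hg : ∀ k c, 0 ≤ g k c) :
    ∑ k' ∈ range (n + 1), ∑ r ∈ dn (n - k') R, (if IsRt (lbl N) n k' r then
      ∑ k ∈ range (k' + 1), ∑ c ∈ cb (k' - k) (fcb j r),
        (if Seen N j k' r k c then g k c else 0) else 0)
      ≤ 3 * ∑ k ∈ range (n + 1), ∑ c ∈ cb (n - k) (fcb j R), g k c := by
  have h1 : ∀ (k' : ℕ) (r : Bx) (k : ℕ), ∑ c ∈ cb (k' - k) (fcb j r),
        (if Seen N j k' r k c then g k c else 0)
      ≤ ∑ m ∈ dn (k' - k) r, (if lbl N k m = lbl N k' r then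
        (if NP m then g k (fcb j m) else 0) else 0) := by
    intro k' r k
    rw [sum_dn_face j]
    refine sum_le_sum fun c _ => ?_
    split_ifs with h
    · obtain ⟨m, hm, hNP, hc, hl⟩ := h
      have hpos : ∀ t ∈ iv (k' - k) (mis j r), 0 ≤ (if lbl N k (bov j t c) = lbl N k' r then
        (if NP (bov j t c) then g k (fcb j (bov j t c)) else 0) else 0) := by
        intro t _
        split_ifs
        · exact hg _ _
        · exact le_rfl
        · exact le_rfl
      have hmem : mis j m ∈ iv (k' - k) (mis j r) := by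
        rw [mem_iv]
        rw [mem_dn] at hm
        rw [← hm]
        fin_cases j <;> rfl
      refine le_trans (le_of_eq ?_) (single_le_sum hpos hmem)
      have e : bov j (mis j m) c = m := by rw [← hc, bov_mis]
      rw [e, if_pos hl, if_pos hNP, hc]
    · refine sum_nonneg fun t _ => ?_
      split_ifs
      · exact hg _ _
      · exact le_rfl
      · exact le_rfl
  have h2 : ∑ k' ∈ range (n + 1), ∑ r ∈ dn (n - k') R, (if IsRt (lbl N) n k' r then
      ∑ k ∈ range (k' + 1), ∑ c ∈ cb (k' - k) (fcb j r),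
        (if Seen N j k' r k c then g k c else 0) else 0)
      ≤ ∑ k' ∈ range (n + 1), ∑ r ∈ dn (n - k') R, (if IsRt (lbl N) n k' r then
      ∑ k ∈ range (k' + 1), ∑ m ∈ dn (k' - k) r, (if lbl N k m = lbl N k' r then
        (if NP m then g k (fcb j m) else 0) else 0) else 0) := by
    refine sum_le_sum fun k' _ => sum_le_sum fun r _ => ?_
    split_ifs
    · exact sum_le_sum fun k _ => h1 k' r k
    · exact le_rfl
  have h3 := window_sum (lbl_mono hN) n R (fun k m => if NP m then g k (fcb j m) else 0)
  have h4 : ∑ k ∈ range (n + 1), ∑ m ∈ dn (n - k) R, (if NP m then g k (fcb j m) else 0)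
      ≤ 3 * ∑ k ∈ range (n + 1), ∑ c ∈ cb (n - k) (fcb j R), g k c := by
    rw [mul_sum]
    exact sum_le_sum fun k _ => sum_dn_NP_face_le j (n - k) R (g k) (hg k)
  rw [← h3] at h4
  refine h2.trans (le_trans (le_of_eq ?_) h4)
  refine sum_congr rfl fun k' _ => sum_congr rfl fun r _ => ?_
  split_ifs
  · refine sum_congr rfl fun k _ => sum_congr rfl fun m _ => ?_
    by_cases h : lbl N k m = lbl N k' r
    · rw [if_pos h, if_pos h]
    · rw [if_neg h, if_neg h]
  · rfl

/-! ### stopped telescoping on one face -/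

open Classical in
/-- Telescoping of a face quantity over a family of alive cubes closed under parents. -/
theorem telescope {A : ℕ → Pt → Prop} (hA : ∀ k c, A k c → A (k + 1) (cx 1 c)) (e : ℕ → Pt → ℝ)
    (K : ℕ) (C : Pt) :
    ∑ k ∈ range K, ∑ c ∈ cb (K - (k + 1)) C,
        (if A (k + 1) c then (∑ c' ∈ cb 1 c, e k c') - e (k + 1) c else 0)
      = ∑ k ∈ range K, ∑ c ∈ cb (K - k) C, (if ¬ A k c ∧ A (k + 1) (cx 1 c) then e k c else 0)
        + ∑ c ∈ cb K C, (if A 0 c then e 0 c else 0) - (if A K C then e K C else 0) := by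
  -- the masked totals
  set E : ℕ → ℝ := fun k => ∑ c ∈ cb (K - k) C, (if A k c then e k c else 0) with hE
  have hKK : E K = if A K C then e K C else 0 := by
    have h0 : cb (K - K) C = {C} := by
      ext p
      rw [mem_cb, Nat.sub_self, mem_singleton]
      unfold cx
      simp only [ix_zero]
    simp only [hE]
    rw [h0, sum_singleton]
  have h0 : E 0 = ∑ c ∈ cb K C, (if A 0 c then e 0 c else 0) := by
    simp only [hE, Nat.sub_zero]
  have hstep : ∀ k ∈ range K, ∑ c ∈ cb (K - (k + 1)) C,
        (if A (k + 1) c then (∑ c' ∈ cb 1 c, e k c') - e (k + 1) c else 0)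
      = (∑ c ∈ cb (K - k) C, (if ¬ A k c ∧ A (k + 1) (cx 1 c) then e k c else 0) + E k)
        - E (k + 1) := by
    intro k hk
    have hkK := mem_range.mp hk
    have h1 : ∑ c ∈ cb (K - (k + 1)) C, (if A (k + 1) c then ∑ c' ∈ cb 1 c, e k c' else 0)
        = ∑ c ∈ cb (K - k) C, (if A (k + 1) (cx 1 c) then e k c else 0) := by
      rw [← sum_fiberwise_of_maps_to (s := cb (K - k) C) (t := cb (K - (k + 1)) C) (g := cx 1)]
      · refine sum_congr rfl fun c hc => ?_
        have h2 : (cb (K - k) C).filter (fun p => cx 1 p = c) = cb 1 c := by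
          ext p
          rw [mem_filter, mem_cb, mem_cb]
          rw [mem_cb] at hc
          constructor
          · exact fun h => h.2
          · intro h
            refine ⟨?_, h⟩
            have e1 : K - k = 1 + (K - (k + 1)) := by omega
            rw [e1, ← hc, ← h]
            unfold cx
            simp only [ix_ix]
        rw [h2]
        split_ifs with hAc
        · refine sum_congr rfl fun p hp => ?_
          rw [mem_cb.mp hp, if_pos hAc]
        · symm
          refine sum_eq_zero fun p hp => ?_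
          rw [mem_cb.mp hp, if_neg hAc]
      · intro c hc
        rw [mem_cb] at hc ⊢
        rw [← hc]
        have e1 : K - k = 1 + (K - (k + 1)) := by omega
        rw [e1]
        unfold cx
        simp only [ix_ix]
    have h3 : ∀ c, (if A (k + 1) (cx 1 c) then e k c else 0)
        = (if ¬ A k c ∧ A (k + 1) (cx 1 c) then e k c else 0) + (if A k c then e k c else 0) := by
      intro c
      by_cases hc : A k c
      · rw [if_pos (hA k c hc), if_neg (by tauto), if_pos hc, zero_add]
      · by_cases hc' : A (k + 1) (cx 1 c)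
        · rw [if_pos hc', if_pos ⟨hc, hc'⟩, if_neg hc, add_zero]
        · rw [if_neg hc', if_neg (by tauto), if_neg hc, add_zero]
    have h4 : ∑ c ∈ cb (K - (k + 1)) C,
        (if A (k + 1) c then (∑ c' ∈ cb 1 c, e k c') - e (k + 1) c else 0)
        = ∑ c ∈ cb (K - (k + 1)) C, (if A (k + 1) c then ∑ c' ∈ cb 1 c, e k c' else 0)
          - E (k + 1) := by
      simp only [hE]
      rw [← sum_sub_distrib]
      refine sum_congr rfl fun c _ => ?_
      split_ifs <;> simp
    rw [h4, h1]
    simp only [h3]
    rw [sum_add_distrib]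
  rw [sum_congr rfl hstep]
  have h5 : ∀ k ∈ range K, (∑ c ∈ cb (K - k) C,
      (if ¬ A k c ∧ A (k + 1) (cx 1 c) then e k c else 0) + E k) - E (k + 1)
      = ∑ c ∈ cb (K - k) C, (if ¬ A k c ∧ A (k + 1) (cx 1 c) then e k c else 0)
        + (E k - E (k + 1)) := fun k _ => by ring
  rw [sum_congr rfl h5, sum_add_distrib, sum_range_sub', h0, hKK]
  ring

end

end Vale.Agent.P141.PL.H477
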